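import Vale.Agent.N178B.Step
import Vale.Agent.P178.H924.Detect

/-!
# The loop of self-maps of a classifying space given by an endomorphism of the identity functor
-/

namespace Vale.Agent.N178B

open CategoryTheory Simplicial Opposite Topology
open Vale.Agent.P246.T Vale.Agent.P178
open Vale.Agent.P246.T.PR (pc Q aff pm sl sum_map aff_comp pm_aff aff_congr aff_one aff_zero val_sa
  val_pa)
open Vale.Agent.P178.H924 (Re chr chr_map am SCh sbd spush can rmap)

section Glue

/-- the partial sums of the coordinates -/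
noncomputable def cum {k : ℕ} (t : Dl k) (a : ℕ) : ℝ := ∑ i : Fin k, if (i : ℕ) < a then t i else 0

theorem cum_succ {k : ℕ} (t : Dl k) (i : Fin k) : cum t (i + 1) = cum t i + t i := by
  have h : ∀ l : Fin k, (if (l : ℕ) < i + 1 then t l else 0) =
      (if (l : ℕ) < i then t l else 0) + if l = i then t l else 0 := fun l => by
    simp only [Fin.ext_iff]
    split_ifs <;> first | omega | simp
  rw [cum, cum, Finset.sum_congr rfl fun l _ => h l, Finset.sum_add_distrib, Finset.sum_ite_eq',
    if_pos (Finset.mem_univ _)]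

theorem cum_mono {k : ℕ} (t : Dl k) {a b : ℕ} (h : a ≤ b) : cum t a ≤ cum t b :=
  Finset.sum_le_sum fun i _ => by
    split_ifs <;> first | omega | simp

theorem cum_zero {k : ℕ} (t : Dl k) : cum t 0 = 0 := by simp [cum]

theorem cum_top {k : ℕ} (t : Dl k) {a : ℕ} (h : k ≤ a) : cum t a = 1 := by
  rw [cum, Finset.sum_congr rfl fun i _ => if_pos (i.2.trans_le h)]
  exact t.2.2

theorem cum_ext {k : ℕ} {t t' : Dl k} (h : ∀ a ≤ k, cum t a = cum t' a) : t = t' :=
  Subtype.ext (funext fun i => by
    have h1 := cum_succ t i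
    rw [h _ i.2, h _ i.2.le, cum_succ] at h1
    exact (add_left_cancel h1).symm)

theorem cum_fst {k : ℕ} (j : Fin k) (t : Dl (k + 1)) : cum t (j + 1) = 1 - (Q k j t).1 := by
  rw [eq_sub_iff_add_eq, ← t.2.2]
  change _ + ∑ i, (if j.castSucc < i then t i else 0) = _
  rw [cum, ← Finset.sum_add_distrib]
  refine Finset.sum_congr rfl fun i _ => ?_
  simp only [Fin.lt_def, Fin.val_castSucc]
  split_ifs <;> first | omega | (exact add_zero _) | (exact zero_add _)

theorem cum_snd {k : ℕ} (j : Fin k) (t : Dl (k + 1)) (a : ℕ) :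
    cum (Q k j t).2 a = cum t (if a ≤ j then a else a + 1) := by
  refine (sum_map (fun i => j.predAbove i) (fun i => (i : ℕ) < a) t).trans
    (Finset.sum_congr rfl fun i _ => if_congr ?_ rfl rfl)
  rw [val_pa]
  split_ifs <;> omega

theorem cum_Q {k : ℕ} (j : Fin k) (t : Dl (k + 1)) (a : ℕ) : cum t (a + 1) =
    min (cum (Q k j t).2 (a + 1)) (max (cum (Q k j t).2 a) (1 - (Q k j t).1)) := by
  rw [← cum_fst, cum_snd, cum_snd]
  split_ifs with h1 h2 h2
  · exact (min_eq_left (le_max_of_le_right (cum_mono t (by omega)))).symm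
  · omega
  · obtain rfl : a = j := by omega
    rw [max_eq_right (cum_mono t (by omega)), min_eq_right (cum_mono t (by omega))]
  · rw [max_eq_left (cum_mono t (by omega)), min_eq_right (cum_mono t (by omega))]

theorem Q_inj {k : ℕ} {j j' : Fin k} {t t' : Dl (k + 1)} (h : Q k j t = Q k j' t') : t = t' :=
  cum_ext fun a _ => by
    cases a with
    | zero => rw [cum_zero, cum_zero]
    | succ a => rw [cum_Q j, cum_Q j', h]

theorem exists_Q {k : ℕ} (q : I × Dl (k + 1)) : ∃ j t, Q (k + 1) j t = q := by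
  obtain ⟨s, y⟩ := q
  have hs0 := s.2.1
  have hs1 := s.2.2
  have hex : ∃ a, 1 - (s : ℝ) ≤ cum y (a + 1) := ⟨k, by rw [cum_top y le_rfl]; linarith⟩
  let j := Nat.find hex
  have hjk : j ≤ k := Nat.find_min' hex (by rw [cum_top y le_rfl]; linarith)
  have hj1 : 1 - (s : ℝ) ≤ cum y (j + 1) := Nat.find_spec hex
  have hj0 : cum y j ≤ 1 - (s : ℝ) := by
    rcases Nat.eq_zero_or_pos j with h | h
    · rw [h, cum_zero]; linarith
    · have := Nat.find_min hex (m := j - 1) (Nat.sub_lt h one_pos)
      rw [show j - 1 + 1 = j by omega] at this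
      exact (not_le.1 this).le
  let e : ℕ → ℝ := fun a => if a ≤ j then cum y a else if a = j + 1 then 1 - s else cum y (a - 1)
  have he : ∀ a, e a ≤ e (a + 1) := fun a => by
    simp only [e]
    split_ifs <;> first | omega | (exact cum_mono y (by omega)) | skip
    · obtain rfl : a = j := by omega
      exact hj0
    · obtain rfl : a = j + 1 := by omega
      exact hj1
  have hc : ∀ a ≤ k + 2, ∑ i : Fin (k + 2), (if (i : ℕ) < a then e (i + 1) - e i else 0) = e a :=
    fun a ha => by
      rw [Fin.sum_univ_eq_sum_range (fun i => if i < a then e (i + 1) - e i else 0),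
        ← Finset.sum_filter, show (Finset.range (k + 2)).filter (· < a) = Finset.range a by
          ext i; simp only [Finset.mem_filter, Finset.mem_range]; omega, Finset.sum_range_sub]
      simp [e, cum_zero]
  let t : Dl (k + 2) := ⟨fun i => e (i + 1) - e i, fun i => sub_nonneg.2 (he i), by
    have h1 := hc (k + 2) le_rfl
    rw [Finset.sum_congr rfl fun i _ => if_pos i.2] at h1
    rw [h1]
    simp only [e]
    split_ifs with h2 h3
    · omega
    · omega
    · exact cum_top y (by omega)⟩
  have ht : ∀ a ≤ k + 2, cum t a = e a := hc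
  refine ⟨⟨j, by omega⟩, t, Prod.ext (Subtype.ext ?_) (cum_ext fun a ha => ?_)⟩
  · have h1 := cum_fst ⟨j, by omega⟩ t
    rw [ht _ (by simp only; omega)] at h1
    simp only [e, if_neg (Nat.not_succ_le_self j), if_true] at h1
    linarith
  · rw [cum_snd, ht _ (by split_ifs <;> omega)]
    simp only [e]
    split_ifs <;> first | omega | rfl

/-- gluing maps on the simplices of the prism -/
theorem exists_glue {Y : Type} [TopologicalSpace Y] {k : ℕ} (u : Fin (k + 1) → C(Dl (k + 2), Y))
    (hu : ∀ (j : Fin k) (t : Dl (k + 2)), t j.succ.castSucc = 0 → u j.castSucc t = u j.succ t) :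
    ∃ Φ : C(I × Dl (k + 1), Y), ∀ j t, Φ (Q (k + 1) j t) = u j t := by
  have h1 : ∀ (t : Dl (k + 2)) (j j' : Fin (k + 1)), j ≤ j' → cum t (j' + 1) ≤ cum t (j + 1) →
      u j t = u j' t := by
    intro t j j'
    induction j' using Fin.induction with
    | zero => intro h _; rw [Fin.le_zero_iff.1 h]
    | succ l ih =>
      intro h h'
      rcases h.eq_or_lt with h | h
      · rw [h]
      · have h2 := cum_succ t l.succ.castSucc
        have h3 : cum t (j + 1) ≤ cum t (l + 1) := cum_mono t (by
          rw [Fin.lt_def, Fin.val_succ] at h; omega)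
        have h4 : 0 ≤ t l.succ.castSucc := t.2.1 _
        simp only [Fin.val_castSucc, Fin.val_succ] at h2 h' ih
        rw [ih (Fin.le_castSucc_iff.2 h) (by linarith), hu l t (by linarith)]
  have h2 : ∀ j j' t t', Q (k + 1) j t = Q (k + 1) j' t' → u j t = u j' t' := by
    intro j j' t t' h
    obtain rfl := Q_inj h
    have h3 : cum t (j + 1) = cum t (j' + 1) := by rw [cum_fst, cum_fst, h]
    rcases le_total j j' with h4 | h4
    · exact h1 t j j' h4 h3.ge
    · exact (h1 t j' j h4 h3.le).symm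
  choose j t hq using exists_Q (k := k)
  let π : Fin (k + 1) × Dl (k + 2) → I × Dl (k + 1) := fun r => Q (k + 1) r.1 r.2
  have hπ : Continuous π := continuous_prod_of_discrete_left.2 fun j => (Q (k + 1) j).continuous
  have hπ' : IsQuotientMap π :=
    hπ.isClosedMap.isQuotientMap hπ fun q => ⟨(j q, t q), hq q⟩
  refine ⟨⟨fun q => u (j q) (t q), hπ'.continuous_iff.2 ?_⟩, fun j t => h2 _ _ _ _ (hq _)⟩
  have h3 : (fun q => u (j q) (t q)) ∘ π = fun r => u r.1 r.2 := funext fun r => h2 _ _ _ _ (hq _)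
  rw [h3]
  exact continuous_prod_of_discrete_left.2 fun j => (u j).continuous

end Glue

theorem chr_injective (X : SSet.{0}) (n : ℕ) : Function.Injective (chr X (n := n)) := by
  intro x y h
  obtain ⟨m, s, hs, ⟨σ, hσ⟩, rfl⟩ := X.exists_nonDegenerate x
  obtain ⟨m', s', hs', ⟨σ', hσ'⟩, rfl⟩ := X.exists_nonDegenerate y
  have key : ∀ t : Dl (n + 1), H924.Inr t → (⟨m, σ, am s t⟩ : Σ m, X _⦋m⦌ × Dl (m + 1)) =
      ⟨m', σ', am s' t⟩ := fun t ht =>
    H924.chr_inj hσ (H924.am_inr s ht) hσ' (H924.am_inr s' ht) (by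
      have h1 := DFunLike.congr_fun h t
      rwa [chr_map, chr_map] at h1)
  let b : Fin (n + 1) → Dl (n + 1) := fun j => ⟨fun i => ((if i = j then (n + 2 : ℝ) else 0) + 1) /
    (2 * n + 3), fun i => by dsimp only; split_ifs <;> positivity, by
      rw [← Finset.sum_div, Finset.sum_add_distrib, Finset.sum_ite_eq', if_pos (Finset.mem_univ _),
        div_eq_one_iff_eq (by positivity)]
      simp only [Finset.sum_const, Finset.card_univ, Fintype.card_fin, nsmul_eq_mul]
      push_cast
      ring⟩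
  have hb : ∀ j, H924.Inr (b j) := fun j i => by
    change (_ / _ : ℝ) ≠ 0
    split_ifs <;> positivity
  obtain rfl : m = m' := congrArg Sigma.fst (key _ (hb 0))
  have key2 := fun t ht => Prod.ext_iff.1 (eq_of_heq (Sigma.mk.inj (key t ht)).2)
  obtain rfl : σ = σ' := (key2 _ (hb 0)).1
  obtain rfl : s = s' := by
    ext j : 3
    by_contra hne
    have h1 : am s (b j) = am s' (b j) := (key2 _ (hb j)).2
    have h2 : ∀ r : ⦋n⦌ ⟶ ⦋m⦌, b j j ≤ am r (b j) (r j) := fun r => by
      rw [H924.am_apply]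
      exact Finset.single_le_sum (f := b j) (fun i _ => (b j).2.1 i) (by simp)
    have h3 : am s (b j) (s j) + am s (b j) (s' j) ≤ 1 := by
      rw [← (am s (b j)).2.2]
      exact (Finset.sum_pair (f := am s (b j)) hne).symm.trans_le
        (Finset.sum_le_sum_of_subset_of_nonneg (Finset.subset_univ _) fun i _ _ =>
          (am s (b j)).2.1 i)
    have h4 := h2 s'
    rw [← h1] at h4
    have h5 : 1 / 2 < b j j := by
      change _ < (_ / _ : ℝ)
      rw [if_pos rfl, lt_div_iff₀ (by positivity)]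
      linarith
    linarith [h2 s]
  rfl

theorem can_injective (X : SSet.{0}) (n : ℕ) : Function.Injective (can X n) :=
  Finsupp.mapDomain_injective (chr_injective X n)

/-- an endomorphism of the identity functor -/
structure En (C : Type) [SmallCategory C] where
  e : ∀ c : C, c ⟶ c
  nat : ∀ {a b : C} (f : a ⟶ b), f ≫ e b = e a ≫ f

variable {C D : Type} [SmallCategory C] [SmallCategory D] (η : En C) {n k l : ℕ}

open Classical in
/-- the simplices of the prism over a simplex of the nerve -/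
noncomputable def sx (x : Fin (n + 1) ⥤ C) (f : Fin (k + 1) →o Fin (n + 1))
    (p : Fin (k + 1) →o Prop) : Fin (k + 1) ⥤ C where
  obj i := x.obj (f i)
  map {i j} h := x.map (homOfLE (f.monotone h.le)) ≫ if ¬ p i ∧ p j then η.e _ else 𝟙 _
  map_id i := by
    rw [if_neg fun h => h.1 h.2, Category.comp_id]
    exact x.map_id _
  map_comp {i j l} h h' := by
    have e : x.map (homOfLE (f.monotone (h ≫ h').le)) = x.map (homOfLE (f.monotone h.le)) ≫
        x.map (homOfLE (f.monotone h'.le)) := by rw [← x.map_comp]; rfl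
    have h1 : p i → p j := p.monotone h.le
    have h2 : p j → p l := p.monotone h'.le
    rw [e]
    by_cases hi : p i
    · simp [hi, h1 hi]
    by_cases hj : p j
    · simp [hi, hj, h2 hj, η.nat]
    · simp [hi, hj]

theorem sx_eq (x : Fin (n + 1) ⥤ C) (f : Fin (k + 1) →o Fin (n + 1)) (p : Fin (k + 1) →o Prop)
    (h : ∀ i j, ¬ p i → p j → η.e (x.obj (f j)) = 𝟙 _) :
    sx η x f p = (nerve C).map (SimplexCategory.mkHom f).op x := by
  refine CategoryTheory.Functor.ext (fun _ => rfl) fun i j g => ?_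
  change x.map _ ≫ _ = 𝟙 _ ≫ x.map _ ≫ 𝟙 _
  rw [Category.id_comp]
  split_ifs with h1
  · rw [h i j h1.1 h1.2]
    rfl
  · rfl

theorem sx_nat (η' : En D) (G : C ⥤ D) (x : Fin (n + 1) ⥤ C)
    (hG : ∀ i, G.map (η.e (x.obj i)) = η'.e (G.obj (x.obj i)))
    (f : Fin (k + 1) →o Fin (n + 1)) (p : Fin (k + 1) →o Prop) :
    sx η x f p ⋙ G = sx η' (x ⋙ G) f p := by
  refine CategoryTheory.Functor.ext (fun _ => rfl) fun i j g => ?_
  change G.map (x.map _ ≫ _) = 𝟙 _ ≫ (G.map (x.map _) ≫ _) ≫ 𝟙 _
  rw [Category.id_comp, Category.comp_id]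
  refine (G.map_comp _ _).trans (congrArg _ ?_)
  split_ifs
  exacts [hG _, G.map_id _]

theorem chr_sx (x : Fin (n + 1) ⥤ C) (f : Fin (k + 1) →o Fin (n + 1)) (p : Fin (k + 1) →o Prop)
    (θ : Fin (l + 1) →o Fin (k + 1)) {f' : Fin (l + 1) →o Fin (n + 1)} {p' : Fin (l + 1) →o Prop}
    (hf : ∀ i, f (θ i) = f' i) (hp : ∀ i, p (θ i) ↔ p' i) (t : Dl (l + 1)) :
    chr (nerve C) (n := k) (sx η x f p) (stdSimplex.map θ t) =
      chr (nerve C) (n := l) (sx η x f' p') t := by
  obtain rfl : f.comp θ = f' := OrderHom.ext _ _ (funext hf)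
  obtain rfl : p.comp θ = p' := OrderHom.ext _ _ (funext fun i => propext (hp i))
  exact (DFunLike.congr_fun (chr_map (nerve C) (SimplexCategory.mkHom θ) (sx η x f p)) t).symm

/-- the vertices above `j` -/
def up (j : Fin (n + 1)) : Fin (n + 2) →o Prop := ⟨fun i => j.castSucc < i, fun _ _ h h' =>
  lt_of_lt_of_le h' h⟩

/-- the `j`-th simplex of the prism -/
noncomputable def pz (x : (nerve C) _⦋n⦌) (j : Fin (n + 1)) : (nerve C) _⦋n + 1⦌ :=
  sx η x (Fin.predAboveOrderHom j) (up j)

theorem exists_Phi (x : (nerve C) _⦋n⦌) : ∃ Φ : C(I × Dl (n + 1), Re (nerve C)),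
    ∀ j t, Φ (Q (n + 1) j t) = chr (nerve C) (pz η x j) t := by
  refine exists_glue _ fun j t ht => ?_
  obtain ⟨y, rfl⟩ := CV.exists_face _ ht
  have h1 := fun j' hf hp => chr_sx η x (Fin.predAboveOrderHom j') (up j')
    (Fin.succAboveOrderEmb j.succ.castSucc).toOrderHom (f' := OrderHom.id)
    (p' := ⟨fun i => j.castSucc < i, fun _ _ h h' => lt_of_lt_of_le h' h⟩) hf hp y
  refine (h1 j.castSucc (fun i => ?_) fun i => ?_).trans (h1 j.succ (fun i => ?_) fun i => ?_).symm
  · change j.castSucc.predAbove (j.succ.castSucc.succAbove i) = i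
    simp only [Fin.ext_iff, val_sa, val_pa, Fin.val_castSucc, Fin.val_succ]
    split_ifs <;> omega
  · change j.castSucc.castSucc < j.succ.castSucc.succAbove i ↔ j.castSucc < i
    simp only [Fin.lt_def, val_sa, Fin.val_castSucc, Fin.val_succ]
    split_ifs <;> omega
  · change j.succ.predAbove (j.succ.castSucc.succAbove i) = i
    simp only [Fin.ext_iff, val_sa, val_pa, Fin.val_castSucc, Fin.val_succ]
    split_ifs <;> omega
  · change j.succ.castSucc < j.succ.castSucc.succAbove i ↔ j.castSucc < i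
    simp only [Fin.lt_def, val_sa, Fin.val_castSucc, Fin.val_succ]
    split_ifs <;> omega

/-- the map on the prism over a simplex -/
noncomputable def Phi (x : (nerve C) _⦋n⦌) : C(I × Dl (n + 1), Re (nerve C)) :=
  (exists_Phi η x).choose

theorem Phi_Q (x : (nerve C) _⦋n⦌) (j : Fin (n + 1)) (t : Dl (n + 2)) :
    Phi η x (Q (n + 1) j t) = chr (nerve C) (pz η x j) t :=
  (exists_Phi η x).choose_spec j t

open Classical in
theorem Phi_aff (x : (nerve C) _⦋n⦌) (f : Fin (k + 1) →o Fin (n + 1)) (p : Fin (k + 1) →o Prop)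
    (t : Dl (k + 1)) : Phi η x (aff p f t) = chr (nerve C) (n := k) (sx η x f p) t := by
  let j : Fin (n + 1) := (Finset.univ.filter fun i => ¬ p i).sup f
  have h1 : ∀ i, ¬ p i → f i ≤ j := fun i hi => Finset.le_sup (f := f) (by simpa using hi)
  have h2 : ∀ i, p i → j ≤ f i := fun i hi => Finset.sup_le fun i' hi' => f.monotone
    (le_of_not_ge fun h => (Finset.mem_filter.1 hi').2 (p.monotone h hi))
  let θ : Fin (k + 1) →o Fin (n + 2) := ⟨fun i => if p i then (f i).succ else (f i).castSucc,
    fun i i' h => by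
      have h3 : (f i : ℕ) ≤ f i' := f.monotone h
      have h4 : p i → p i' := p.monotone h
      simp only [Fin.le_def]
      split_ifs with h5 h6 <;> simp only [Fin.val_succ, Fin.val_castSucc] <;>
        first | omega | (exact absurd (h4 h5) h6)⟩
  have hf : ∀ i, j.predAbove (θ i) = f i := fun i => by
    have h3 := h1 i
    have h4 := h2 i
    change j.predAbove (if p i then _ else _) = _
    simp only [Fin.le_def] at h3 h4
    split_ifs with h5
    · have := h4 h5
      simp only [Fin.ext_iff, val_pa, Fin.val_succ]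
      split_ifs <;> omega
    · have := h3 h5
      simp only [Fin.ext_iff, val_pa, Fin.val_castSucc]
      split_ifs <;> omega
  have hp : ∀ i, j.castSucc < θ i ↔ p i := fun i => by
    change j.castSucc < (if p i then _ else _) ↔ _
    split_ifs with h5
    · exact iff_of_true (Fin.castSucc_lt_succ_iff.2 (h2 i h5)) h5
    · exact iff_of_false (not_lt.2 (Fin.castSucc_le_castSucc_iff.2 (h1 i h5))) h5
  rw [← chr_sx η x (Fin.predAboveOrderHom j) (up j) θ hf hp, ← aff_congr _ _ _ _ hp hf,
    ← aff_comp (fun i => j.castSucc < i) (fun i => j.predAbove i) θ (stdSimplex.continuous_map _)]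
  exact Phi_Q η x j _

/-- the compatible family of homotopies -/
noncomputable def fam : H924.Fam (nerve C) C(I, Re (nerve C)) where
  f _ x := ((Phi η x).comp ⟨Prod.swap, continuous_swap⟩).curry
  nat m n g x := by
    classical
    refine ContinuousMap.ext fun t => ContinuousMap.ext fun s => ?_
    change Phi η ((nerve C).map g.op x) (s, t) = Phi η x (pm g.toOrderHom (s, t))
    obtain ⟨j, v, h⟩ := exists_Q (k := m) (s, t)
    rw [← h, Phi_Q, Q, ← ContinuousMap.comp_apply (pm _), pm_aff]
    refine Eq.symm (Eq.trans ?_ (Phi_aff η x (g.toOrderHom.comp (Fin.predAboveOrderHom j)) (up j) v))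
    exact congrArg (fun a : C(_, _) => Phi η x (a v)) (aff_congr _ _ _ _ (fun _ => Iff.rfl)
      fun _ => rfl)

/-- the homotopy -/
noncomputable def HH : C(I × Re (nerve C), Re (nerve C)) :=
  (fam η).desc.uncurry.comp ⟨Prod.swap, continuous_swap⟩

theorem HH_chr (x : (nerve C) _⦋n⦌) (s : I) (t : Dl (n + 1)) :
    HH η (s, chr (nerve C) x t) = Phi η x (s, t) :=
  congrArg (fun a : C(Dl (n + 1), C(I, Re (nerve C))) => a t s) ((fam η).desc_chr (n := n) x)

open Classical in
theorem HH_end (s : I) (p : Prop) (hs : ∀ n, aff (fun _ : Fin (n + 1) => p) id = sl s)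
    (y : Re (nerve C)) : HH η (s, y) = y := by
  obtain ⟨n, x, t, rfl⟩ := H924.exists_chr y
  have h1 := Phi_aff η x OrderHom.id (OrderHom.const _ p) t
  rw [sx_eq η x _ _ fun i j h h' => absurd h' h, chr_map] at h1
  refine (HH_chr η x s t).trans (Eq.trans ?_ (h1.trans
    (congrArg (chr (nerve C) x) (stdSimplex.map_id_apply t))))
  exact congrArg (fun a : C(_, _) => Phi η x (a t)) (hs n).symm

/-- the loop of self-maps of the classifying space -/
noncomputable def En.lp (c : C) (hc : η.e c = 𝟙 c) :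
    Lp (Re (nerve C)) (chr (nerve C) (n := 0) (ComposableArrows.mk₀ c) default) where
  H := HH η
  h0 := HH_end η 0 False fun _ => @aff_zero _ _ (_) (fun _ => id) _ fun _ => rfl
  h1 := HH_end η 1 True fun _ => @aff_one _ _ (_) (fun _ => trivial) _ fun _ => rfl
  hz s := by
    obtain ⟨j, v, h⟩ := exists_Q (s, (default : Dl 1))
    refine (HH_chr η _ s _).trans ?_
    rw [← h]
    refine (Phi_Q η _ j v).trans ((congrArg (fun a => chr (nerve C) (n := 1) a v)
      (sx_eq η _ _ _ fun _ _ _ _ => hc)).trans ?_)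
    exact (DFunLike.congr_fun (chr_map _ _ _) v).trans
      (congrArg (chr (nerve C) (n := 0) (ComposableArrows.mk₀ c)) (Subsingleton.elim _ _))

theorem HH_nat (η' : En D) (G : C ⥤ D) (hG : ∀ c, G.map (η.e c) = η'.e (G.obj c)) (s : I)
    (y : Re (nerve C)) : rmap (nerveMap G) (HH η (s, y)) = HH η' (s, rmap (nerveMap G) y) := by
  obtain ⟨n, x, t, rfl⟩ := H924.exists_chr y
  obtain ⟨j, v, h⟩ := exists_Q (s, t)
  rw [H924.rmap_chr_apply, HH_chr, HH_chr, ← h, Phi_Q, Phi_Q, H924.rmap_chr_apply]
  exact congrArg (fun a => chr (nerve D) (n := n + 1) a v) (sx_nat η η' G x (fun _ => hG _) _ _)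

/-- the simplicial prism -/
noncomputable def sp (n : ℕ) : SCh (nerve C) n →ₗ[ℤ] SCh (nerve C) (n + 1) :=
  Finsupp.linearCombination ℤ fun x => ∑ j : Fin (n + 1), (-1 : ℤ) ^ (j : ℕ) •
    Finsupp.single (pz η x j) 1

theorem sp_single (x : (nerve C) _⦋n⦌) (a : ℤ) : sp η n (Finsupp.single x a) =
    a • ∑ j : Fin (n + 1), (-1 : ℤ) ^ (j : ℕ) • Finsupp.single (pz η x j) 1 :=
  Finsupp.linearCombination_single ℤ a x

theorem PH_can (c : SCh (nerve C) n) : PH (HH η) n (can _ n c) = can _ (n + 1) (sp η n c) := by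
  induction c using Finsupp.induction_linear with
  | zero => simp only [map_zero]
  | add a b ha hb => simp only [map_add, ha, hb]
  | single x a =>
    rw [H924.can_single, PH_single, sp_single, map_smul, map_sum, pc]
    refine congrArg _ (Finset.sum_congr rfl fun j _ => ?_)
    rw [map_smul]
    refine congrArg _ (Eq.trans ?_ (H924.can_single _ _ _ _).symm)
    exact congrArg (Finsupp.single · 1) (ContinuousMap.ext fun t =>
      (HH_chr η x _ _).trans (Phi_Q η x j t))

theorem spush_sp (η' : En D) (G : C ⥤ D) (hG : ∀ c, G.map (η.e c) = η'.e (G.obj c))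
    (c : SCh (nerve C) n) :
    spush (nerveMap G) (n + 1) (sp η n c) = sp η' n (spush (nerveMap G) n c) :=
  can_injective _ _ (by
    rw [← PH_can, ← H924.push_can, ← H924.push_can, ← PH_can, push_PH _ (HH_nat η η' G hG)])

theorem sbd_sp (c₀ : C) (hc : η.e c₀ = 𝟙 c₀) {c : SCh (nerve C) (n + 1)} (h : sbd _ n c = 0) :
    sbd _ (n + 1) (sp η (n + 1) c) = 0 :=
  can_injective _ _ (by
    have h1 := bd_PH (η.lp c₀ hc) n (can _ (n + 1) c)
    rw [H924.bd_can, h, map_zero, map_zero, neg_zero] at h1
    rw [← H924.bd_can, ← PH_can, map_zero]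
    exact h1)

end Vale.Agent.N178B
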