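import Vale.Agent.N178B.Unit

/-!
# The examples in every degree
-/

open IsLocalRing MvPowerSeries
open Vale.Agent.P178 Vale.Agent.N178

namespace Vale.Agent.N178B

/-- the Leibniz rule -/
def Lb {R : Type} [CommRing R] (δ : R →+ R) : Prop := ∀ a b, δ (a * b) = a * δ b + b * δ a

/-- the constants of a derivation -/
def Lb.ker {R : Type} [CommRing R] {δ : R →+ R} (h : Lb δ) : Subring R where
  carrier := {x | δ x = 0}
  mul_mem' {a b} ha hb := by
    rw [Set.mem_ofPred_eq, h, show δ a = 0 from ha, show δ b = 0 from hb, mul_zero, mul_zero,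
      add_zero]
  one_mem' := by
    have h1 := h 1 1
    rw [mul_one, one_mul] at h1
    exact left_eq_add.1 h1
  add_mem' {a b} ha hb := by
    rw [Set.mem_ofPred_eq, map_add, show δ a = 0 from ha, show δ b = 0 from hb, add_zero]
  zero_mem' := map_zero δ
  neg_mem' {a} ha := by rw [Set.mem_ofPred_eq, map_neg, show δ a = 0 from ha, neg_zero]

theorem exists_der' {R : Type} [CommRing R] {f : R} {K : Ideal R} (hf : Ideal.span {f} ≤ K)
    {δ : R →+ R} (h : Lb δ) (hδ : δ f ∈ K) : ∃ D : (R ⧸ Ideal.span {f}) →+ (R ⧸ K), (∀ a b,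
      D (a * b) = Ideal.Quotient.factor hf a * D b + Ideal.Quotient.factor hf b * D a) ∧
      ∀ g, D (Ideal.Quotient.mk _ g) = Ideal.Quotient.mk K (δ g) :=
  exists_der hf (Derivation.mk' δ.toIntLinearMap h : Derivation ℤ R R) hδ

theorem crit {A B k : Type} [CommRing A] [CommRing B] [CommRing k] (φ : A →+* k) (f : A →+* B)
    (N : ℕ) {m : ℕ} (a : Fin (m + 3) → A) (D : Fin (m + 3) → A →+ k)
    (hD : ∀ l a b, D l (a * b) = φ a * D l b + φ b * D l a)
    (h1 : a 0 * a 1 = ∑ i ∈ Finset.range (N + 1), a 2 ^ i) (h2 : IsUnit (1 + a 0 * (1 - a 2)))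
    (h3 : IsUnit (a 0 + ∑ i ∈ Finset.range N, a 2 ^ i)) (h4 : IsUnit (1 + a 1))
    (h5 : ∀ i, 2 ≤ i.1 → IsUnit (a i)) (h6 : IsUnit (f (a 0))) (h7 : IsUnit (f (1 - a 2)))
    (h8 : Matrix.det (Matrix.of fun i l => D l (a i)) ≠ 0) {p : ℕ} (hp : (p : k) = 0) :
    ∃ α : QK.K (m + 3) A, QK.K.map (m + 3) f α = 1 ∧ ∀ β, β ^ p ≠ α :=
  letI : Algebra A k := φ.toAlgebra
  exists_of_good (good_all (k := k) f N m a h1 h2 h3 h4 h5 h6 h7)
    (fun l => Derivation.mk' (D l).toIntLinearMap (hD l)) h8 hp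

variable {V : Type} [CommRing V] {p r s : ℕ}

/-- a derivation acts on the coefficients -/
noncomputable def cd (σ : Type) (δ : V →+ V) : MvPowerSeries σ V →+ MvPowerSeries σ V where
  toFun f := fun n => δ (coeff n f)
  map_zero' := MvPowerSeries.ext fun _ => map_zero δ
  map_add' f g := MvPowerSeries.ext fun n => map_add δ (coeff n f) (coeff n g)

theorem coeff_cd {σ : Type} (δ : V →+ V) (f : MvPowerSeries σ V) (n : σ →₀ ℕ) :
    coeff n (cd σ δ f) = δ (coeff n f) := rfl

theorem Lb.cd {δ : V →+ V} (h : Lb δ) (σ : Type) : Lb (cd σ δ) := fun f g => by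
  classical
  ext n
  rw [coeff_cd, map_add, mul_comm g, coeff_mul, coeff_mul, coeff_mul, map_sum,
    ← Finset.sum_add_distrib]
  exact Finset.sum_congr rfl fun x _ => by rw [h, coeff_cd, coeff_cd, mul_comm (δ _)]

theorem cd_C {σ : Type} (δ : V →+ V) (a : V) : cd σ δ (C a) = C (δ a) := by
  classical
  ext n
  rw [coeff_cd, coeff_C, coeff_C, apply_ite δ, map_zero]

theorem cd_X {σ : Type} {δ : V →+ V} (h : Lb δ) (i : σ) : X i ∈ (h.cd σ).ker := by
  classical
  change cd σ δ (X i) = 0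
  ext n
  rw [coeff_cd, coeff_X, apply_ite δ, map_zero, show δ 1 = 0 from h.ker.one_mem, ite_self,
    map_zero]

theorem rel_mem (S : Subring (MvPowerSeries (Fin (r + 3)) V)) (h : ∀ i, X i ∈ S) :
    rel p r V ∈ S :=
  S.sub_mem (S.mul_mem (h 0) (h 1)) (S.sum_mem fun _ _ => S.pow_mem (S.sub_mem S.one_mem (h 2)) _)

theorem el_mem (S : Subring (MvPowerSeries (Fin (r + 3)) V)) (h : ∀ i, X i ∈ S)
    (i : Fin (r + 3)) : el p r V i ∈ S := by
  unfold el
  split_ifs
  · exact h 0
  · exact S.mul_mem (h 1) (S.sum_mem fun _ _ => S.pow_mem (S.sub_mem S.one_mem (h 2)) _)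
  · exact S.sub_mem S.one_mem (h 2)
  · exact S.add_mem S.one_mem (h i)

/-- an element in the kernel of `K_n(A) → K_n(Frac A)` which is not a `p`-th power -/
def Bad (p n : ℕ) (A : Type) [CommRing A] : Prop :=
  ∃ α : QK.K n A, QK.K.map n (algebraMap A (FractionRing A)) α = 1 ∧ ∀ β, β ^ p ≠ α

theorem bad_RA [hp : Fact p.Prime] [IsDomain V] [IsDiscreteValuationRing V]
    (hV : maximalIdeal V = Ideal.span {(p : V)}) (t : Fin s → V) (ht : ∀ i, IsUnit (t i))
    (δ : Fin s → V →+ V) (hδ : ∀ l, Lb (δ l)) (hδt : ∀ i l, δ l (t i) = if i = l then 1 else 0)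
    {m : ℕ} (hm : m ≤ r + s) [IsDomain (RA p r V)] : Bad p (m + 3) (RA p r V) := by
  classical
  let E : Fin (r + 3) ⊕ Fin s → MvPowerSeries (Fin (r + 3)) V := Sum.elim (el p r V) fun i => C (t i)
  let Δ : Fin (r + 3) ⊕ Fin s → MvPowerSeries (Fin (r + 3)) V →+ MvPowerSeries (Fin (r + 3)) V :=
    Sum.elim (fun l => (pderiv V l).toLinearMap.toAddMonoidHom) fun l => cd _ (δ l)
  let G : Fin (r + 3) ⊕ Fin s → MvPowerSeries (Fin (r + 3)) V := Sum.elim (dg p r V) fun _ => 1
  have h1 : ∀ l, Lb (Δ l) := by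
    rintro (l | l)
    exacts [fun a b => (pderiv V l).leibniz a b, (hδ l).cd _]
  have h2 : ∀ l, Δ l (rel p r V) ∈ KI p r V := by
    rintro (l | l)
    · exact d_rel_mem l
    · exact (show cd _ (δ l) (rel p r V) = 0 from rel_mem _ (cd_X (hδ l))) ▸ Ideal.zero_mem _
  have h3 : ∀ i l, Δ l (E i) - (if i = l then G i else 0) ∈ KI p r V := by
    rintro (i | i) (l | l)
    · simp only [Sum.inl.injEq]
      exact d_el i l
    · rw [if_neg nofun, sub_zero]
      exact (show cd _ (δ l) (el p r V i) = 0 from el_mem _ (cd_X (hδ l)) i) ▸ Ideal.zero_mem _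
    · rw [if_neg nofun, sub_zero]
      exact (show pderiv V l (C (t i)) = 0 from pderiv_C) ▸ Ideal.zero_mem _
    · change cd _ (δ l) (C (t i)) - (if _ then 1 else 0) ∈ _
      simp only [cd_C, hδt, Sum.inr.injEq, apply_ite C, map_one, map_zero, sub_self]
      exact Ideal.zero_mem _
  choose D hD hD' using fun l => exists_der' (rel_le (p := p) (r := r) (V := V)) (h1 l) (h2 l)
  let ι : Fin (m + 3) → Fin (r + 3) ⊕ Fin s := fun i =>
    finSumFinEquiv.symm (Fin.castLE (by omega) i)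
  have hι : Function.Injective ι := finSumFinEquiv.symm.injective.comp (Fin.castLE_injective _)
  have hι' : ∀ (i : Fin (m + 3)) (j : Fin (r + 3)), i.1 = j.1 → ι i = Sum.inl j := fun i j h =>
    finSumFinEquiv.symm_apply_eq.2 (Fin.ext h)
  have hι'' : ∀ (i : Fin (m + 3)) (j : Fin (r + 3)), ι i = Sum.inl j → i.1 = j.1 := fun i j h =>
    congrArg Fin.val (finSumFinEquiv.symm_apply_eq.1 h)
  let a : Fin (m + 3) → RA p r V := fun i => Ideal.Quotient.mk _ (E (ι i))
  have a0 : a 0 = Ideal.Quotient.mk _ (el p r V 0) := by simp only [a, hι' 0 0 rfl]; rfl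
  have a1 : a 1 = Ideal.Quotient.mk _ (el p r V 1) := by simp only [a, hι' 1 1 rfl]; rfl
  have a2 : a 2 = Ideal.Quotient.mk _ (el p r V 2) := by simp only [a, hι' 2 2 rfl]; rfl
  have hDa : ∀ i l, D (ι l) (a i) = if i = l then Ideal.Quotient.mk _ (G (ι i)) else 0 :=
    fun i l => by
      rw [hD', Ideal.Quotient.eq.2 (h3 _ _), apply_ite (Ideal.Quotient.mk (KI p r V)), map_zero]
      simp only [hι.eq_iff]
  have hG : ∀ i, i ≠ 1 → IsUnit (Ideal.Quotient.mk (KI p r V) (G (ι i))) := fun i hi => by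
    refine IsUnit.map _ ?_
    rcases h : ι i with j | j
    · have hj : j ≠ 1 := fun e => hi (Fin.ext ((hι'' i j h).trans (congrArg Fin.val e)))
      change IsUnit (dg p r V j)
      rw [dg, if_neg hj]
      split_ifs
      exacts [isUnit_one.neg, isUnit_one]
    · exact isUnit_one
  have hG1 : Ideal.Quotient.mk (KI p r V) (G (ι 1)) ≠ 0 := by
    rw [hι' 1 1 rfl, Ne, Ideal.Quotient.eq_zero_iff_mem]
    change dg p r V 1 ∉ _
    rw [dg, if_pos rfl]
    exact gS_not_mem ((mem_maximalIdeal _).1 (p_max hV))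
  have hk : Nontrivial (MvPowerSeries (Fin (r + 3)) V ⧸ KI p r V) := ⟨⟨_, _, hG1⟩⟩
  have hF : ∀ x : RA p r V, x ≠ 0 →
      IsUnit (algebraMap (RA p r V) (FractionRing (RA p r V)) x) := fun x hx =>
    ((map_ne_zero_iff _ (IsFractionRing.injective _ _)).2 hx).isUnit
  obtain ⟨u1, u2, u3⟩ := units_RA (r := r) hV
  refine crit _ _ (p * p - 1) a (fun l => D (ι l)) (fun l => hD _) ?_ (a0 ▸ a2 ▸ u1)
    (a0 ▸ a2 ▸ u2) (a1 ▸ u3) (fun i hi => ?_) (hF _ fun h => ?_) (hF _ fun h => ?_) ?_ ?_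
  · rw [Nat.sub_add_cancel (Nat.mul_pos hp.out.pos hp.out.pos), a0, a1, a2]
    exact el_rel
  · change IsUnit (Ideal.Quotient.mk _ (E (ι i)))
    rcases h : ι i with j | j
    · exact unit_el hV j (hι'' i j h ▸ hi)
    · exact ((ht j).map C).map _
  · have h4 := hDa 0 0
    rw [h, map_zero, if_pos rfl] at h4
    exact (hG 0 n01).ne_zero h4.symm
  · have h4 := hDa 2 2
    have h5 := hD (ι 2) 1 1
    rw [mul_one, map_one (Ideal.Quotient.factor _), one_mul, left_eq_add] at h5
    rw [← sub_eq_zero.1 h, h5, if_pos rfl] at h4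
    exact (hG 2 n12.symm).ne_zero h4.symm
  · rw [show (Matrix.of fun i l : Fin (m + 3) => D (ι l) (a i)) =
      Matrix.diagonal fun i => Ideal.Quotient.mk _ (G (ι i)) from Matrix.ext hDa,
      Matrix.det_diagonal, ← Finset.mul_prod_erase _ _ (Finset.mem_univ 1)]
    exact fun h => hG1 ((IsUnit.mul_left_eq_zero (IsUnit.prod_iff.2 fun i hi =>
      hG _ (Finset.mem_erase.1 hi).1)).1 h)
  · rw [← map_natCast (Ideal.Quotient.mk (KI p r V)), Ideal.Quotient.eq_zero_iff_mem]
    exact p_mem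

/-- the local ring at `p` of the polynomial ring over the integers in countably many variables -/
theorem exists_dvr (p : ℕ) [hp : Fact p.Prime] : ∃ (V : Type) (_ : CommRing V) (_ : IsDomain V)
    (_ : IsDiscreteValuationRing V) (t : ℕ → V) (δ : ℕ → V →+ V),
    maximalIdeal V = Ideal.span {(p : V)} ∧ (∀ i, IsUnit (t i)) ∧ (∀ l, Lb (δ l)) ∧
      ∀ i l, δ l (t i) = if i = l then 1 else 0 := by
  have h0 : Prime (MvPolynomial.C (p : ℤ) : MvPolynomial ℕ ℤ) :=
    (MvPolynomial.prime_C_iff _).2 (Nat.prime_iff_prime_int.1 hp.out)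
  let P : Ideal (MvPolynomial ℕ ℤ) := Ideal.span {MvPolynomial.C (p : ℤ)}
  have hP : P.IsPrime := (Ideal.span_singleton_prime h0.ne_zero).2 h0
  let V := Localization.AtPrime P
  let j := algebraMap (MvPolynomial ℕ ℤ) V
  have hp' : j (MvPolynomial.C (p : ℤ)) = p := by rw [map_natCast, map_natCast]
  have hV : maximalIdeal V = Ideal.span {(p : V)} := by
    rw [← IsLocalization.AtPrime.map_eq_maximalIdeal P V, Ideal.map_span, Set.image_singleton, hp']
  have hj : Function.Injective j := IsLocalization.injective V P.primeCompl_le_nonZeroDivisors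
  have h1 : (p : V) ≠ 0 := fun h => h0.ne_zero (hj (by rw [hp', h, map_zero]))
  have hD : IsDiscreteValuationRing V := by
    refine IsDiscreteValuationRing.ofHasUnitMulPowIrreducibleFactorization ⟨p,
      ((Ideal.span_singleton_prime h1).1 (hV ▸ inferInstance)).irreducible, fun {x} hx => ?_⟩
    obtain ⟨⟨a, b⟩, h2⟩ := IsLocalization.surj P.primeCompl x
    have hb := IsLocalization.map_units V b
    obtain ⟨n, c, h3, rfl⟩ := WfDvdMonoid.max_power_factor (a₀ := a) (fun h => hx (by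
      rw [h, map_zero] at h2
      exact hb.mul_left_eq_zero.1 h2)) h0.irreducible
    have hc := IsLocalization.map_units V (⟨c, fun h => h3 (Ideal.mem_span_singleton.1 h)⟩ :
      P.primeCompl)
    refine ⟨n, (associated_mul_unit_right _ _ hc).trans (Associated.trans (Associated.of_eq ?_)
      (associated_mul_unit_left x _ hb))⟩
    rw [h2, map_mul, map_pow, ← hp']
  let g : ℕ → MvPolynomial ℕ ℤ →+* DualNumber V := fun l =>
    MvPolynomial.eval₂Hom (Int.castRingHom _) fun i => TrivSqZeroExt.inl (j (MvPolynomial.X i)) +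
      TrivSqZeroExt.inr (if i = l then 1 else 0)
  have hg : ∀ l, (TrivSqZeroExt.fstHom V V V).toRingHom.comp (g l) = j := fun l =>
    MvPolynomial.ringHom_ext (fun a => by simp) fun i => by simp [g]
  have hu : ∀ l (y : P.primeCompl), IsUnit (g l y) := fun l y =>
    TrivSqZeroExt.isUnit_iff_isUnit_fst.2 ((show (g l y).fst = j y from
      DFunLike.congr_fun (hg l) y.1) ▸ IsLocalization.map_units V y)
  let Φ : ℕ → V →+* DualNumber V := fun l => IsLocalization.lift (hu l)
  have hΦ : ∀ l x, (Φ l x).fst = x := fun l x => DFunLike.congr_fun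
    (IsLocalization.ringHom_ext P.primeCompl (j := (TrivSqZeroExt.fstHom V V V).toRingHom.comp (Φ l))
      (k := RingHom.id V) (by rw [RingHom.comp_assoc, IsLocalization.lift_comp, hg]; rfl)) x
  refine ⟨V, inferInstance, inferInstance, hD, fun i => j (MvPolynomial.X i), fun l =>
    (TrivSqZeroExt.sndHom V V).toAddMonoidHom.comp (Φ l).toAddMonoidHom, hV, fun i => ?_,
    fun l a b => ?_, fun i l => ?_⟩
  · refine IsLocalization.map_units V (⟨MvPolynomial.X i, fun h => ?_⟩ : P.primeCompl)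
    have h1 := (MvPolynomial.C_dvd_iff_dvd_coeff _ _).1 (Ideal.mem_span_singleton.1 h)
      (Finsupp.single i 1)
    rw [MvPolynomial.coeff_X, if_pos rfl] at h1
    exact (Nat.prime_iff_prime_int.1 hp.out).not_dvd_one h1
  · change (Φ l (a * b)).snd = a * (Φ l b).snd + b * (Φ l a).snd
    rw [map_mul, DualNumber.snd_mul, hΦ, hΦ, mul_comm b]
  · change (IsLocalization.lift (hu l) (j (MvPolynomial.X i))).snd = _
    rw [IsLocalization.lift_eq]
    simp [g]

end Vale.Agent.N178B
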