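import Vale.Agent.P178.H551.Hur4
import Vale.Agent.P178.H924.Fund

/-!
# Loops of self-maps act on homotopy groups
-/

namespace Vale.Agent.N178B

open Vale.Agent.P246.T Vale.Agent.P178 Vale.Agent.P178.H551 Vale.Agent.P178.H301
open Vale.Agent.P246.T.PR (pc bd_pc push_pc)

variable {Z Y : Type} [TopologicalSpace Z] [TopologicalSpace Y] {z : Z} {m : ℕ}

/-- a loop of self-maps of `Z`, based at the identity and fixing `z` -/
structure Lp (Z : Type) [TopologicalSpace Z] (z : Z) where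
  H : C(I × Z, Z)
  h0 : ∀ x, H (0, x) = x
  h1 : ∀ x, H (1, x) = x
  hz : ∀ s, H (s, z) = z

/-- the homotopy of a simplex -/
def hm (H : C(I × Z, Z)) {k : ℕ} (σ : C(Dl k, Z)) : Hm k Z :=
  H.comp ⟨fun q => (q.1, σ q.2), by fun_prop⟩

/-- the prism chain -/
noncomputable def PH (H : C(I × Z, Z)) (n : ℕ) : Ch n Z →ₗ[ℤ] Ch (n + 1) Z :=
  Finsupp.linearCombination ℤ fun σ => pc (n + 1) (hm H σ)

theorem PH_single (H : C(I × Z, Z)) (n : ℕ) (σ : C(Dl (n + 1), Z)) (a : ℤ) :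
    PH H n (Finsupp.single σ a) = a • pc (n + 1) (hm H σ) :=
  Finsupp.linearCombination_single ℤ a σ

theorem bd_PH (L : Lp Z z) (n : ℕ) (c : Ch (n + 1) Z) :
    bd (n + 1) (PH L.H (n + 1) c) = -PH L.H n (bd n c) := by
  induction c using Finsupp.induction_linear with
  | zero => simp only [map_zero, neg_zero]
  | add a b ha hb => simp only [map_add, ha, hb, neg_add]
  | single σ a =>
    have e0 : (hm L.H σ).at 0 = σ := ContinuousMap.ext fun x => L.h0 _
    have e1 : (hm L.H σ).at 1 = σ := ContinuousMap.ext fun x => L.h1 _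
    rw [PH_single, map_smul, bd_pc, e0, e1, sub_self, zero_sub, smul_neg, bd_single, map_sum,
      Finset.smul_sum]
    refine congrArg Neg.neg (Finset.sum_congr rfl fun i _ => ?_)
    rw [PH_single, mul_smul]
    rfl

theorem push_PH (g : C(Z, Y)) {H : C(I × Z, Z)} {H' : C(I × Y, Y)}
    (h : ∀ s x, g (H (s, x)) = H' (s, g x)) (n : ℕ) (c : Ch n Z) :
    push g (n + 1) (PH H n c) = PH H' n (push g n c) := by
  induction c using Finsupp.induction_linear with
  | zero => simp only [map_zero]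
  | add a b ha hb => simp only [map_add, ha, hb]
  | single σ a =>
    rw [PH_single, push_single, PH_single, map_smul, push_pc]
    exact congrArg (fun K => a • pc (n + 1) K) (ContinuousMap.ext fun q => h _ _)

/-- a simplex with the faces `a, b, z, …, z` -/
def Fc (z : Z) {n : ℕ} (τ : C(Dl (n + 2), Z)) (a b : C(Dl (n + 1), Z)) : Prop :=
  ∀ i y, τ (face (n + 1) i y) =
    Matrix.vecCons a (Matrix.vecCons b fun _ => ContinuousMap.const _ z) i y

theorem face_ss {n : ℕ} (i : Fin (n + 2)) (hi : i = 0 ∨ i = Fin.succ 0) (y : Dl (n + 1))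
    (j : Fin n) : face (n + 1) i y j.succ.succ = y j.succ := by
  rw [← CV.face_succAbove (n + 1) i y j.succ]
  congr 1
  rcases hi with rfl | rfl
  · rfl
  · rw [Fin.succ_succAbove_succ, Fin.succAbove_zero]

/-- deformation of the first two faces -/
theorem Fc.move {n : ℕ} {τ : C(Dl (n + 2), Z)} (A B : Hm (n + 1) Z)
    (h : Fc z τ (A.at 0) (B.at 0)) (hAB : ∀ t y, y 0 = 0 → A (t, y) = B (t, y))
    (hA : ∀ t y (i : Fin n), y i.succ = 0 → A (t, y) = z)
    (hB : ∀ t y (i : Fin n), y i.succ = 0 → B (t, y) = z) :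
    ∃ τ' : C(Dl (n + 2), Z), Fc z τ' (A.at 1) (B.at 1) ∧ ∃ b, Finsupp.single τ' 1 -
      Finsupp.single τ 1 - pc (n + 1) A + pc (n + 1) B = bd (n + 1) b := by
  let G : Fin (n + 2) → Hm (n + 1) Z :=
    Matrix.vecCons A (Matrix.vecCons B fun _ => ContinuousMap.const _ z)
  have hv : ∀ i y t (j : Fin n), face (n + 1) i y j.succ.succ = 0 → G i (t, y) = z := by
    intro i y t j hj
    rcases Fin.eq_zero_or_eq_succ i with rfl | ⟨i, rfl⟩
    · exact hA t y j ((face_ss _ (Or.inl rfl) y j).symm.trans hj)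
    rcases Fin.eq_zero_or_eq_succ i with rfl | ⟨i, rfl⟩
    · exact hB t y j ((face_ss _ (Or.inr rfl) y j).symm.trans hj)
    · rfl
  have h01 : ∀ y y' t, face (n + 1) 0 y = face (n + 1) (Fin.succ 0) y' → A (t, y) = B (t, y') := by
    intro y y' t e
    have e1 : y 0 = 0 := by
      rw [← CV.face_succAbove (n + 1) 0 y 0, e]
      exact CV.face_self _ _ _
    have e2 : y' 0 = 0 := by
      rw [← CV.face_succAbove (n + 1) (Fin.succ 0) y' 0, ← e]
      exact CV.face_self _ _ _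
    have e3 : y = y' := Subtype.ext (funext fun j => by
      rcases Fin.eq_zero_or_eq_succ j with rfl | ⟨j, rfl⟩
      · exact e1.trans e2.symm
      · exact (face_ss _ (Or.inl rfl) y j).symm.trans (by rw [e]; exact face_ss _ (Or.inr rfl) _ j))
    rw [← e3, hAB t y e1]
  obtain ⟨K, hK0, hK⟩ := Sys.hep τ G (fun i y => by
    rw [h i y]
    rcases Fin.eq_zero_or_eq_succ i with rfl | ⟨i, rfl⟩
    · rfl
    rcases Fin.eq_zero_or_eq_succ i with rfl | ⟨i, rfl⟩ <;> rfl) (by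
    intro i j y y' e t
    have hi := CV.face_self _ i y
    have hj := CV.face_self _ j y'
    rcases Fin.eq_zero_or_eq_succ i with rfl | ⟨i, rfl⟩
    · rcases Fin.eq_zero_or_eq_succ j with rfl | ⟨j, rfl⟩
      · rw [Sys.face_inj _ _ e]
      rcases Fin.eq_zero_or_eq_succ j with rfl | ⟨j, rfl⟩
      · exact h01 y y' t e
      · exact hv _ y t j (e ▸ hj)
    rcases Fin.eq_zero_or_eq_succ i with rfl | ⟨i, rfl⟩
    · rcases Fin.eq_zero_or_eq_succ j with rfl | ⟨j, rfl⟩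
      · exact (h01 y' y t e.symm).symm
      rcases Fin.eq_zero_or_eq_succ j with rfl | ⟨j, rfl⟩
      · rw [Sys.face_inj _ _ e]
      · exact hv _ y t j (e ▸ hj)
    · exact (hv _ y' t i (e ▸ hi)).symm)
  have e1 : ∀ i, Hm.fc K i = G i := fun i => ContinuousMap.ext fun q => hK i q.1 q.2
  have e2 : Hm.at K 0 = τ := ContinuousMap.ext hK0
  refine ⟨Hm.at K 1, fun i y => ?_, pc (n + 2) K - pc (n + 2) (ContinuousMap.const _ z), ?_⟩
  · refine (hK i 1 y).trans ?_
    rcases Fin.eq_zero_or_eq_succ i with rfl | ⟨i, rfl⟩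
    · rfl
    rcases Fin.eq_zero_or_eq_succ i with rfl | ⟨i, rfl⟩ <;> rfl
  · have e3 : ∀ i, Hm.fc (ContinuousMap.const _ z : Hm (n + 2) Z) i = ContinuousMap.const _ z :=
      fun i => rfl
    have e4 : Hm.at (ContinuousMap.const _ z : Hm (n + 2) Z) 1 =
      Hm.at (ContinuousMap.const _ z : Hm (n + 2) Z) 0 := rfl
    rw [map_sub, bd_pc, bd_pc, e2, e4]
    simp only [e1, e3, Fin.sum_univ_succ, G, Matrix.cons_val_zero, Matrix.cons_val_succ,
      Fin.val_succ, Fin.val_zero, pow_zero, zero_add, pow_one, one_smul, neg_smul]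
    abel

theorem Fc.isSm {n : ℕ} {τ : C(Dl (n + 2), Z)}
    (h : Fc z τ (ContinuousMap.const _ z) (ContinuousMap.const _ z)) : IsSm z τ := by
  intro x i hi
  obtain ⟨y, rfl⟩ := CV.exists_face i hi
  rw [h i y]
  rcases Fin.eq_zero_or_eq_succ i with rfl | ⟨i, rfl⟩
  · rfl
  rcases Fin.eq_zero_or_eq_succ i with rfl | ⟨i, rfl⟩ <;> rfl

theorem exists_fc {n : ℕ} {σ : C(Dl (n + 1), Z)} (hσ : IsSm z σ) :
    ∃ τ : C(Dl (n + 2), Z), Fc z τ σ σ := by
  refine ⟨σ.comp ⟨stdSimplex.map (Fin.predAbove 0), stdSimplex.continuous_map _⟩, fun i y => ?_⟩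
  have key : ∀ j : Fin (n + 2), (∀ l, Fin.predAbove (0 : Fin (n + 1)) (j.succAbove l) = l) →
      stdSimplex.map (Fin.predAbove (0 : Fin (n + 1))) (face (n + 1) j y) = y := fun j hj => by
    change stdSimplex.map _ (stdSimplex.map _ y) = y
    rw [stdSimplex.map_comp_apply, show Fin.predAbove (0 : Fin (n + 1)) ∘ j.succAbove = id from
      funext hj, stdSimplex.map_id_apply]
  rcases Fin.eq_zero_or_eq_succ i with rfl | ⟨i, rfl⟩
  · exact congrArg σ (key 0 fun l => by simp)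
  rcases Fin.eq_zero_or_eq_succ i with rfl | ⟨i, rfl⟩
  · refine congrArg σ (key _ fun l => ?_)
    rcases Fin.eq_zero_or_eq_succ l with rfl | ⟨l, rfl⟩
    · rfl
    · rw [Fin.succ_succAbove_succ, Fin.succAbove_zero]
      simp
  · refine hσ _ i.succ ?_
    change stdSimplex.map (S := ℝ) _ _ i.succ = 0
    rw [stdSimplex.map_coe, FunOnFinite.linearMap_apply_apply]
    refine Finset.sum_eq_zero fun l hl => ?_
    have h1 := (Finset.mem_filter.1 hl).2
    have h2 : l = i.succ.succ := by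
      rcases Fin.eq_zero_or_eq_succ l with rfl | ⟨l, rfl⟩
      · exact absurd h1.symm (Fin.succ_ne_zero i)
      · rw [← h1]
        simp
    rw [h2]
    exact CV.face_self _ _ _

theorem Fc.close {n : ℕ} {τ : C(Dl (n + 3), Z)} {σ : C(Dl (n + 2), Z)} (hσ : IsSm z σ)
    (h : Fc z τ σ σ) : ∃ τ' : C(Dl (n + 3), Z), IsSm z τ' ∧ ∃ b, Finsupp.single τ' 1 -
      Finsupp.single τ 1 = bd (n + 2) b := by
  let A : Hm (n + 2) Z := σ.comp ⟨H924.ctr n, H924.continuous_ctr n⟩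
  have hc : ∀ t (y : Dl (n + 2)) (i : Fin (n + 1)), H924.ctr n (t, y) i.succ =
      (1 - (t : ℝ)) * y i.succ := fun t y i => by
    change (1 - (t : ℝ)) * y i.succ + t * (if i.succ = 0 then 1 else 0) = _
    rw [if_neg (Fin.succ_ne_zero i), mul_zero, add_zero]
  have e0 : A.at 0 = σ := ContinuousMap.ext fun y => congrArg σ (Subtype.ext (funext fun i => by
    change (1 - (0 : ℝ)) * y i + 0 * _ = y i
    ring))
  have e1 : A.at 1 = ContinuousMap.const _ z := ContinuousMap.ext fun y =>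
    hσ _ (Fin.succ 0) ((hc 1 y 0).trans (by simp))
  have hA : ∀ t y (i : Fin (n + 1)), y i.succ = 0 → A (t, y) = z := fun t y i hi =>
    hσ _ i.succ ((hc t y i).trans (by rw [hi, mul_zero]))
  obtain ⟨τ', h1, b, hb⟩ := Fc.move A A (by rwa [e0]) (fun _ _ _ => rfl) hA hA
  exact ⟨τ', (e1 ▸ h1 : Fc z τ' _ _).isSm, b, by rw [← hb, sub_add_cancel]⟩

theorem rep_inv {α : HomotopyGroup (Fin (m + 2)) Z z} {c : Ch (m + 2) Z} (h : Rep α c) :
    Rep α⁻¹ (-c) := by
  obtain ⟨d, -, hd⟩ := exists_rep α⁻¹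
  have h1 := h.mul hd
  rw [mul_inv_cancel] at h1
  obtain ⟨b, hb⟩ := h1.bounds
  exact hd.congr ⟨-b, by rw [map_neg, ← hb]; abel⟩

theorem rep_pow {α : HomotopyGroup (Fin (m + 2)) Z z} {c : Ch (m + 2) Z} (h : Rep α c) (n : ℕ) :
    Rep (α ^ n) (n • c) := by
  induction n with
  | zero => rw [pow_zero, zero_smul]; exact Rep.zero
  | succ n ih => rw [pow_succ, succ_nsmul]; exact ih.mul h

theorem rep_hur {σ : C(Dl (m + 3), Z)} (h : IsSm z σ) :
    Rep (Additive.toMul (loop σ h).cls) (hur z σ) :=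
  ⟨σ, h, rfl, 0, by rw [sub_self, map_zero]⟩

/-- the difference of the prisms of a spherical cycle is spherical -/
theorem exists_rep_step (L L' : Lp Z z) {α : HomotopyGroup (Fin (m + 2)) Z z} {c : Ch (m + 2) Z}
    (h : Rep α c) : ∃ β : HomotopyGroup (Fin (m + 1 + 2)) Z z,
      Rep β (PH L.H (m + 2) c - PH L'.H (m + 2) c) := by
  obtain ⟨σ, hσ, -, b, hb⟩ := h
  obtain ⟨τ₀, h₀⟩ := exists_fc hσ
  have ha : ∀ (L : Lp Z z) t, t = 0 ∨ t = 1 → (hm L.H σ).at t = σ := fun L t ht =>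
    ContinuousMap.ext fun x => by
      rcases ht with rfl | rfl
      exacts [L.h0 _, L.h1 _]
  have hz : ∀ (L : Lp Z z) t (y : Dl (m + 3)) i, y i = 0 → hm L.H σ (t, y) = z :=
    fun L t y i hi => (congrArg (fun x => L.H (t, x)) (hσ y i hi)).trans (L.hz t)
  obtain ⟨τ₁, h₁, b₁, hb₁⟩ := Fc.move (τ := τ₀) (hm L.H σ) (hm L'.H σ)
    (by rwa [ha L 0 (Or.inl rfl), ha L' 0 (Or.inl rfl)])
    (fun t y hy => (hz L t y 0 hy).trans (hz L' t y 0 hy).symm) (fun t y i => hz L t y _)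
    (fun t y i => hz L' t y _)
  rw [ha L 1 (Or.inr rfl), ha L' 1 (Or.inr rfl)] at h₁
  obtain ⟨ρ₀, r₀, b₂, hb₂⟩ := h₀.close hσ
  obtain ⟨ρ₁, r₁, b₃, hb₃⟩ := h₁.close hσ
  refine ⟨_, ((rep_hur (m := m + 1) r₁).mul (rep_inv (rep_hur (m := m + 1) r₀))).congr
    ⟨PH L'.H (m + 3) b - PH L.H (m + 3) b + b₂ - b₃ - b₁, ?_⟩⟩
  have hk : hm L.H (ContinuousMap.const (Dl (m + 3)) z) =
      hm L'.H (ContinuousMap.const (Dl (m + 3)) z) :=
    ContinuousMap.ext fun q => (L.hz _).trans (L'.hz _).symm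
  have h1 := bd_PH L (m + 2) b
  have h2 := bd_PH L' (m + 2) b
  rw [← hb, hur, map_sub, map_sub, PH_single, PH_single, one_smul, one_smul] at h1 h2
  rw [hk] at h1
  change _ = bd (m + 2 + 1) _
  rw [map_sub, map_sub, map_add, map_sub, h1, h2]
  rw [show bd (m + 2 + 1) b₁ = _ from hb₁.symm, show bd (m + 2 + 1) b₂ = _ from hb₂.symm,
    show bd (m + 2 + 1) b₃ = _ from hb₃.symm, hur, hur]
  abel

/-- the homotopy fibre -/
abbrev Fib (g : C(Z, Y)) (y : Y) : Type := {q : Z × C(I, Y) // q.2 0 = g q.1 ∧ q.2 1 = y}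

/-- the loop of self-maps of the homotopy fibre -/
def Lp.fib {g : C(Z, Y)} {y : Y} (hg : g z = y) (L : Lp Z z) (M : Lp Y y)
    (h : ∀ s x, g (L.H (s, x)) = M.H (s, g x)) :
    Lp (Fib g y) ⟨(z, ContinuousMap.const _ y), hg.symm, rfl⟩ where
  H := ⟨fun q => ⟨(L.H (q.1, q.2.1.1), M.H.comp ⟨fun t => (q.1, q.2.1.2 t), by fun_prop⟩),
      (congrArg (fun x => M.H (q.1, x)) q.2.2.1).trans (h _ _).symm,
      (congrArg (fun x => M.H (q.1, x)) q.2.2.2).trans (M.hz _)⟩, by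
    refine Continuous.subtype_mk (Continuous.prodMk (by fun_prop) ?_) _
    refine ContinuousMap.continuous_of_continuous_uncurry _ ?_
    change Continuous fun r : (I × Fib g y) × I => M.H (r.1.1, r.1.2.1.2 r.2)
    fun_prop⟩
  h0 x := Subtype.ext (Prod.ext (L.h0 _) (ContinuousMap.ext fun _ => M.h0 _))
  h1 x := Subtype.ext (Prod.ext (L.h1 _) (ContinuousMap.ext fun _ => M.h1 _))
  hz s := Subtype.ext (Prod.ext (L.hz _) (ContinuousMap.ext fun _ => M.hz _))

/-- **The step.** -/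
theorem step {g : C(Z, Y)} {y : Y} (hg : g z = y) (L L' : Lp Z z) (M M' : Lp Y y)
    (h : ∀ s x, g (L.H (s, x)) = M.H (s, g x)) (h' : ∀ s x, g (L'.H (s, x)) = M'.H (s, g x))
    {α : HomotopyGroup (Fin (m + 2)) Z z} {c : Ch (m + 2) Z} (hc : Rep α c)
    (hα : piMap g hg α = 1) : ∃ β : HomotopyGroup (Fin (m + 1 + 2)) Z z,
      Rep β (PH L.H (m + 2) c - PH L'.H (m + 2) c) ∧ piMap g hg β = 1 := by
  let pr : C(Fib g y, Z) := ⟨fun q => q.1.1, by fun_prop⟩
  let f₀ : Fib g y := ⟨(z, ContinuousMap.const _ y), hg.symm, rfl⟩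
  obtain ⟨a, rfl⟩ := Quotient.exists_rep α
  obtain ⟨K⟩ : GenLoop.Homotopic (loopMap g hg a) GenLoop.const := Quotient.exact hα
  let a' : GenLoop (Fin (m + 2)) (Fib g y) f₀ := ⟨⟨fun t => ⟨(a t, ⟨fun s => K (s, t), by
    fun_prop⟩), K.apply_zero t, K.apply_one t⟩, by
      refine Continuous.subtype_mk (Continuous.prodMk (by fun_prop) ?_) _
      refine ContinuousMap.continuous_of_continuous_uncurry _ ?_
      change Continuous fun r : (Fin (m + 2) → I) × I => K (r.2, r.1)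
      fun_prop⟩, fun t ht => Subtype.ext (Prod.ext (a.2 t ht) (ContinuousMap.ext fun s =>
        (K.eq_snd s ht)))⟩
  obtain ⟨c', -, hc'⟩ := exists_rep (⟦a'⟧ : HomotopyGroup (Fin (m + 2)) (Fib g y) f₀)
  obtain ⟨b, hb⟩ := Rep.unique hc (hc'.map pr rfl)
  obtain ⟨β, hβ⟩ := exists_rep_step (L.fib hg M h) (L'.fib hg M' h') hc'
  refine ⟨piMap pr rfl β, (hβ.map pr rfl).congr ⟨PH L'.H (m + 3) b - PH L.H (m + 3) b, ?_⟩, ?_⟩
  · have h1 := bd_PH L (m + 2) b
    have h2 := bd_PH L' (m + 2) b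
    rw [← hb, map_sub] at h1 h2
    change _ - push pr (m + 2 + 1) _ = bd (m + 2 + 1) _
    rw [map_sub, map_sub, h1, h2, push_PH pr (H' := L.H) (fun _ _ => rfl),
      push_PH pr (H' := L'.H) (fun _ _ => rfl)]
    abel
  · obtain ⟨b, rfl⟩ := Quotient.exists_rep β
    refine Quotient.sound ⟨⟨⟨⟨fun q => (b q.2).1.2 q.1, by fun_prop⟩, fun t => (b t).2.1,
      fun t => (b t).2.2⟩, fun s t ht => ?_⟩⟩
    have h1 := b.2 t ht
    change (b.1 t).1.2 s = g (b.1 t).1.1
    rw [h1]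
    exact hg.symm

end Vale.Agent.N178B
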