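import Vale.Agent.N178B.Prism
import Vale.Agent.N178.Final

/-!
# The product with a unit
-/

open CategoryTheory Simplicial Opposite
open Vale.Agent.P178 Vale.Agent.N178
open Vale.Agent.P178.H676 (Susp)
open Vale.Agent.P178.H924 (Re SCh sbd spush sev can rmap)
open Vale.Agent.P246.T.PR (val_sa val_pa)

namespace Vale.Agent.N178B

section Q

variable {R S : Type} [CommRing R] [CommRing S] {X : Type} [AddCommGroup X] [Module R X]

/-- the graph of the multiplication by `u` -/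
def mulG (u : R) (M : Submodule R X) : Submodule R (X × X) :=
  M.map (LinearMap.prod LinearMap.id (u • LinearMap.id))

theorem mem_mulG {u : R} {M : Submodule R X} {z : X × X} :
    z ∈ mulG u M ↔ z.1 ∈ M ∧ u • z.1 = z.2 := by
  constructor
  · rintro ⟨x, hx, rfl⟩
    exact ⟨hx, rfl⟩
  · rintro ⟨h, h'⟩
    exact ⟨z.1, h, Prod.ext rfl h'⟩

theorem isQ_mulG (u : Rˣ) {M : Submodule R X} (hM : QK.IsSummand M) :
    QK.IsQ M M (mulG (u : R) M) where
  fst_mem z hz := (mem_mulG.1 hz).1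
  range x := ⟨fun h => ⟨((u⁻¹ : Rˣ) : R) • x, mem_mulG.2 ⟨M.smul_mem _ h, by
    simp only [smul_smul, Units.mul_inv, one_smul]⟩⟩, fun ⟨y, h⟩ => by
      obtain ⟨h1, h2⟩ := mem_mulG.1 h
      exact (show (u : R) • y = x from h2) ▸ M.smul_mem _ h1⟩
  single x h := (mem_mulG.1 h).2.symm.trans (smul_zero _)
  summand := by
    have : (mulG (u : R) M).map (LinearMap.fst R X X) = M := by
      ext x
      constructor
      · rintro ⟨z, hz, rfl⟩
        exact (mem_mulG.1 hz).1
      · exact fun h => ⟨(x, (u : R) • x), mem_mulG.2 ⟨h, rfl⟩, rfl⟩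
    rwa [this]

/-- multiplication by a unit -/
def enQ (u : Rˣ) : En (QK.QP R) where
  e P := ⟨mulG (u : R) P.M, isQ_mulG u P.summand⟩
  nat {a b} f := QK.QHom.ext' (by
    ext z
    constructor
    · rintro ⟨y, h1, h2⟩
      obtain ⟨-, h3⟩ := mem_mulG.1 h1
      have h4 := f.graph.smul_mem ((u⁻¹ : Rˣ) : R) h2
      rw [← show (u : R) • z.1 = y from h3, Prod.smul_mk, smul_smul, Units.inv_mul, one_smul] at h4
      exact ⟨_, h4, mem_mulG.2 ⟨(f.isQ.range _).2 ⟨_, h4⟩, by
        simp only [smul_smul, Units.mul_inv, one_smul]⟩⟩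
    · rintro ⟨y, h1, h2⟩
      obtain ⟨-, h3⟩ := mem_mulG.1 h2
      have h4 := f.graph.smul_mem (u : R) h1
      rw [Prod.smul_mk, show (u : R) • y = z.2 from h3] at h4
      exact ⟨_, mem_mulG.2 ⟨f.isQ.fst_mem (z.1, y) h1, rfl⟩, h4⟩)

theorem zero_ext (f g : QK.zero R ⟶ QK.zero R) : f = g :=
  QK.QHom.ext' (Subsingleton.elim (α := Submodule R ((Fin 0 → R) × (Fin 0 → R))) _ _)

theorem enQ_bc (f : R →+* S) (u : Rˣ) (P : QK.QP R) : (QK.baseChange f).map ((enQ u).e P) =
    (enQ (Units.map (f : R →* S) u)).e ((QK.baseChange f).obj P) := QK.QHom.ext' (by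
  change QK.bcRel f (mulG (u : R) P.M) = mulG (f u) (QK.bc f P.M)
  rw [QK.bcRel, QK.bc, mulG, mulG, Submodule.map_span, Submodule.map_coe, Set.image_image,
    Set.image_image]
  refine congrArg _ (Set.image_congr fun v _ => Prod.ext rfl (funext fun i => ?_))
  exact map_mul f _ _)

/-- the loop of self-maps of the classifying space -/
noncomputable def lpQ (u : Rˣ) : Lp (Re (nerve (QK.QP R))) (bp R) :=
  (enQ u).lp (QK.zero R) (zero_ext _ _)

theorem kerC_step (f : R →+* S) (u : Rˣ) {m : ℕ} {c : SCh (nerve (QK.QP R)) (m + 2)}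
    (h : KerC f m c) : KerC f (m + 1) (sp (enQ u) _ c - sp (enQ 1) _ c) := by
  obtain ⟨α, h1, h2⟩ := h
  obtain ⟨β, h3, h4⟩ := step (rmap_bp f) (lpQ u) (lpQ 1) (lpQ (Units.map (f : R →* S) u))
    (lpQ (Units.map (f : R →* S) 1)) (HH_nat _ _ _ (enQ_bc f u)) (HH_nat _ _ _ (enQ_bc f 1)) h1 h2
  refine ⟨β, ?_, h4⟩
  rw [map_sub, ← PH_can, ← PH_can]
  exact h3

end Q

section S

variable {G : Type} [Monoid G] (c : G) (hc : ∀ g, g * c = c * g)

/-- multiplication by a central element -/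
def enS : En (Susp G) where
  e x := match x with
    | .south => 𝟙 _
    | .north => 𝟙 _
    | .mid => Susp.el c
  nat {_ _} f := match f with
    | .idS => rfl
    | .idN => rfl
    | .toS => rfl
    | .toN => rfl
    | .el g => congrArg Susp.el (hc g)

theorem val_mid {x y : Susp G} (f : x ⟶ y) (hx : x = .mid) :
    Susp.val (f ≫ (enS c hc).e y) = Susp.val f * c := by
  subst hx
  match y, f with
  | _, .el g => rfl

theorem val_pole {x y : Susp G} (f : x ⟶ y) (hx : x ≠ .mid) :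
    Susp.val (f ≫ (enS c hc).e y) = 1 :=
  match x, y, f with
  | _, _, .idS => rfl
  | _, _, .idN => rfl
  | _, _, .toS => rfl
  | _, _, .toN => rfl
  | _, _, .el _ => absurd rfl hx

variable {n : ℕ} (F : Fin (n + 2) ⥤ Susp G)

theorem vl_neg (j : Fin (n + 2)) {a b : Fin (n + 3)} (h : a ≤ b)
    (h' : ¬ (¬ j.castSucc < a ∧ j.castSucc < b)) {a' b' : Fin (n + 2)} (ha : j.predAbove a = a')
    (hb : j.predAbove b = b') (h'' : a' ≤ b') :
    vl (ι := Fin (n + 3)) (pz (enS c hc) (n := n + 1) F j) a b h = vl F a' b' h'' := by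
  subst ha hb
  exact congrArg Susp.val ((congrArg (_ ≫ ·) (if_neg h')).trans (Category.comp_id _))

theorem vl_pos (j : Fin (n + 2)) {a b : Fin (n + 3)} (h : a ≤ b)
    (h' : ¬ j.castSucc < a ∧ j.castSucc < b) :
    vl (ι := Fin (n + 3)) (pz (enS c hc) (n := n + 1) F j) a b h =
      Susp.val (F.map (homOfLE (Fin.predAbove_right_monotone j h)) ≫ (enS c hc).e _) :=
  congrArg Susp.val (congrArg (_ ≫ ·) (if_pos h'))

theorem not_NM : ¬ NM (n := n + 1) (pz (enS c hc) (n := n + 1) F 0) := fun h =>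
  absurd ((show F.obj 0 = .north from h.1).symm.trans (show F.obj 0 = .mid from h.2 0)) nofun

theorem NM_iff (j : Fin (n + 1)) : NM (n := n + 1) (pz (enS c hc) (n := n + 1) F j.succ) ↔ NM F := by
  refine and_congr Iff.rfl ⟨fun h i => ?_, fun h i => ?_⟩
  · obtain ⟨l, rfl⟩ := Fin.predAbove_surjective j i
    rw [← Fin.succ_predAbove_succ]
    exact h l
  · change F.obj (j.succ.predAbove i.succ) = _
    rw [Fin.succ_predAbove_succ]
    exact h _

theorem edge_self (h : NM F) (j : Fin (n + 1)) :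
    edge (n := n + 1) (pz (enS c hc) (n := n + 1) F j.succ) j = c := by
  have h1 : j.succ.predAbove j.succ.castSucc = j.succ := Fin.predAbove_castSucc_self _
  have h2 : j.succ.predAbove j.succ.succ = j.succ := Fin.predAbove_succ_self _
  have h3 : ∀ (a b : Fin (n + 2)) (hab : a ≤ b), a = j.succ → b = j.succ → vl F a b hab = 1 := by
    rintro _ _ _ rfl rfl
    exact vl_self _ _ _
  refine (vl_pos c hc F _ _ ⟨lt_irrefl _, Fin.castSucc_lt_succ⟩).trans
    ((val_mid c hc _ (h1.symm ▸ h.2 j)).trans ?_)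
  exact (congrArg (· * c) (h3 _ _ _ h1 h2)).trans (one_mul c)

theorem edge_succAbove (j : Fin (n + 1)) (l : Fin n) :
    edge (n := n + 1) (pz (enS c hc) (n := n + 1) F j.succ) (j.succAbove l) = edge F l := by
  refine vl_neg c hc F _ _ ?_ ?_ ?_ _
  · simp only [Fin.lt_def, val_sa, Fin.val_castSucc, Fin.val_succ]
    split_ifs <;> omega
  · simp only [Fin.ext_iff, val_sa, val_pa, Fin.val_castSucc, Fin.val_succ]
    split_ifs <;> omega
  · simp only [Fin.ext_iff, val_sa, val_pa, Fin.val_succ]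
    split_ifs <;> omega

end S

section Mat

variable {A B : Type} [CommRing A] [CommRing B] {κ : Type} [Fintype κ] [DecidableEq κ]

/-- the scalar matrix -/
def sc (κ : Type) [Fintype κ] [DecidableEq κ] (u : Aˣ) : GLm κ A :=
  Units.map (Matrix.scalar κ : A →+* Matrix κ κ A) u

theorem dgm_sc (u : Aˣ) : Dgm (sc κ u) fun _ => u := rfl

theorem sc_comm (u : Aˣ) (g : GLm κ A) : g * sc κ u = sc κ u * g :=
  Units.ext (Matrix.scalar_commute (u : A) (fun r => mul_comm _ r) (g : Matrix κ κ A)).symm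

/-- multiplication by a unit on the suspension -/
def enG (κ : Type) [Fintype κ] [DecidableEq κ] (u : Aˣ) : En (Susp (GLm κ A)) :=
  enS (sc κ u) (sc_comm u)

theorem enG_map {r : ℕ} (e : κ ≃ Fin r) (u : Aˣ) (x : Susp (GLm κ A)) :
    (gFun A e ⋙ QK.toGraph A).map ((enG κ u).e x) =
      (enQ u).e ((gFun A e ⋙ QK.toGraph A).obj x) := by
  cases x
  · exact zero_ext _ _
  · exact zero_ext _ _
  · have h : ∀ x : Fin r → A, H51.glAut e (sc κ u) x = (u : A) • x := fun x => funext fun i => by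
      obtain ⟨v, rfl⟩ := e.surjective i
      exact glAut_dg e (dgm_sc u) x v
    refine QK.QHom.ext' (Submodule.ext fun z => QK.mem_gra.trans (Iff.trans ?_ mem_mulG.symm))
    exact ⟨fun ⟨h1, _, h2⟩ => ⟨h1, (h _).symm.trans h2⟩,
      fun ⟨h1, h2⟩ => ⟨h1, trivial, (h _).trans h2⟩⟩

theorem dgS_pz (u : Aˣ) {n : ℕ} {F : Fin (n + 2) ⥤ Susp (GLm κ A)} (h : DgS F) (j : Fin (n + 2)) :
    DgS (n := n + 1) (pz (enG κ u) (n := n + 1) F j) := by
  refine ⟨h.1, ?_, fun a b hab => ?_⟩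
  · change F.obj (j.predAbove (Fin.last _)) = _
    rw [Fin.predAbove_right_last]
    exact h.2.1
  have hab' := Fin.predAbove_right_monotone j hab
  obtain ⟨χ, hχ⟩ := h.2.2 _ _ hab'
  by_cases h1 : ¬ j.castSucc < a ∧ j.castSucc < b
  · by_cases h2 : F.obj (j.predAbove a) = .mid
    · exact ⟨_, ((vl_pos _ _ F j hab h1).trans (val_mid _ _ _ h2)) ▸ hχ.mul (dgm_sc u)⟩
    · exact ⟨_, ((vl_pos _ _ F j hab h1).trans (val_pole _ _ _ h2)) ▸ Dgm.one⟩
  · exact ⟨_, (vl_neg _ _ F j hab h1 rfl rfl hab') ▸ hχ⟩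

theorem sp_mem (u : Aˣ) {n : ℕ} {z : SCh (nerve (Susp (GLm κ A))) (n + 1)} (h : z ∈ DgC κ A n) :
    sp (enG κ u) (n + 1) z ∈ DgC κ A (n + 1) := by
  have h1 : DgC κ A n ≤ (DgC κ A (n + 1)).comap (sp (enG κ u) (n + 1)) := by
    rw [DgC, Finsupp.supported_eq_span_single, Submodule.span_le]
    rintro _ ⟨F, hF, rfl⟩
    rw [SetLike.mem_coe, Submodule.mem_comap, sp_single]
    exact Submodule.smul_mem _ _ (Submodule.sum_mem _ fun j _ => Submodule.smul_mem _ _
      (Finsupp.single_mem_supported ℤ _ (dgS_pz u hF j)))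
  exact h1 h

variable {k : Type} [CommRing k]

theorem Om_pz (u : Aˣ) {n : ℕ} (a : Fin (n + 1) → A → k) (F : Fin (n + 2) ⥤ Susp (GLm κ A))
    (j : Fin (n + 1)) : Om a (pz (enG κ u) (n := n + 1) F j.succ) =
      a j u * Om (fun l => a (j.succAbove l)) F := by
  by_cases h : NM F
  · rw [Om_pos h, Finset.mul_sum]
    refine (Om_pos ((NM_iff _ _ F j).2 h)).trans (Finset.sum_congr rfl fun v _ => ?_)
    rw [Fin.prod_univ_succAbove _ j, edge_self _ _ F h, (dgm_sc u).entry]
    simp only [edge_succAbove]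
  · rw [Om_neg h, mul_zero]
    exact Om_neg fun h' => h ((NM_iff _ _ F j).1 h')

theorem OmC_sp (u : Aˣ) {n : ℕ} (a : Fin (n + 1) → A → k)
    (z : SCh (nerve (Susp (GLm κ A))) (n + 1)) : OmC a (sp (enG κ u) (n + 1) z) =
      ∑ j : Fin (n + 1), (-1) ^ ((j : ℕ) + 1) * a j u * OmC (fun l => a (j.succAbove l)) z := by
  induction z using Finsupp.induction_linear with
  | zero => simp
  | add x y hx hy => simp only [map_add, hx, hy, mul_add, Finset.sum_add_distrib]
  | single F c =>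
    rw [sp_single, map_smul, map_sum, Fin.sum_univ_succ, map_smul, OmC_single,
      show Om a (pz (enG κ u) (n := n + 1) F 0) = 0 from Om_neg (not_NM _ _ F), smul_zero,
      smul_zero, zero_add, Finset.smul_sum]
    refine Finset.sum_congr rfl fun j _ => ?_
    rw [map_smul, OmC_single, OmC_single, one_smul, show Om a (pz (enG κ u) (n := n + 1) F j.succ)
      = _ from Om_pz u a F j, Fin.val_succ]
    simp only [zsmul_eq_mul, Int.cast_pow, Int.cast_neg, Int.cast_one]
    ring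

variable [Algebra A k]

/-- **The product with a unit.** -/
theorem good_step {f : A →+* B} {m : ℕ} {a : Fin (m + 2) → A} (h : Good f k m (Fin.init a))
    (ha : IsUnit (a (Fin.last _))) : Good f k (m + 1) a := by
  obtain ⟨z, ε, h1, h2, h3, h4⟩ := h
  obtain ⟨u, hu⟩ := ha
  refine ⟨sp (enG _ u) _ z - sp (enG _ 1) _ z, (-1) ^ m * ε * u⁻¹, ?_, ?_,
    Submodule.sub_mem _ (sp_mem u h3) (sp_mem 1 h3), fun D => ?_⟩
  · rw [map_sub, gMap, spush_sp _ _ _ (enG_map _ u), spush_sp _ _ _ (enG_map _ 1)]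
    exact kerC_step f u h1
  · rw [map_sub, sbd_sp _ .south rfl h2, sbd_sp _ .south rfl h2, sub_zero]
  · rw [map_sub, OmC_sp, OmC_sp, Matrix.det_succ_row _ (Fin.last _), Finset.mul_sum,
      ← Finset.sum_sub_distrib]
    refine Finset.sum_congr rfl fun j _ => ?_
    rw [dli_unit, dli_unit, dlo_one, h4 fun l => D (j.succAbove l), dlo, Matrix.of_apply, ← hu,
      show (Matrix.of fun i j => D j (a i)).submatrix (Fin.last _).succAbove j.succAbove =
        Matrix.of fun i l => D (j.succAbove l) (Fin.init a i) by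
          ext i l; rw [Matrix.submatrix_apply, Fin.succAbove_last]; rfl]
    simp only [Units.val_mul, Units.val_pow_eq_pow_val, Units.val_neg, Units.val_one, map_mul,
      map_pow, map_neg, map_one, Fin.val_last]
    have h5 : (-1 : k) ^ m * (-1) ^ m = 1 := by rw [← mul_pow]; simp
    linear_combination ((-1) ^ (j : ℕ) * algebraMap A k ε * algebraMap A k ((u⁻¹ : Aˣ) : A) *
      D j u * Matrix.det (Matrix.of fun i l => D (j.succAbove l) (Fin.init a i))) * h5

theorem good_all (f : A →+* B) (N : ℕ) : ∀ (m : ℕ) (a : Fin (m + 3) → A),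
    a 0 * a 1 = ∑ i ∈ Finset.range (N + 1), a 2 ^ i → IsUnit (1 + a 0 * (1 - a 2)) →
    IsUnit (a 0 + ∑ i ∈ Finset.range N, a 2 ^ i) → IsUnit (1 + a 1) →
    (∀ i, 2 ≤ i.1 → IsUnit (a i)) → IsUnit (f (a 0)) → IsUnit (f (1 - a 2)) →
    Good f k (m + 2) a := by
  intro m
  induction m with
  | zero => exact fun a h1 h2 h3 h4 h5 => good_zero k f N a h1 h2 h3 h4 (h5 2 le_rfl)
  | succ m ih =>
    exact fun a h1 h2 h3 h4 h5 h6 h7 => good_step
      (ih (Fin.init a) h1 h2 h3 h4 (fun i hi => h5 i.castSucc hi) h6 h7)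
      (h5 _ (Nat.le_add_left 2 (m + 1)))

theorem exists_of_pow {X : SSet.{0}} {x₀ : Re X} {m p : ℕ}
    {α β : HomotopyGroup (Fin (m + 2)) (Re X) x₀} {x : SCh X (m + 2)}
    (hα : H551.Rep α (can _ _ x)) (hβ : β ^ p = α) : ∃ y : SCh X (m + 2), sbd _ (m + 1) y = 0 ∧
      ∃ b, P246.T.bd (m + 2) b = can _ (m + 2) (x - p • y) := by
  obtain ⟨c, hc, hβ'⟩ := H551.exists_rep β
  obtain ⟨y, hy, b, hb⟩ := H924.comp_surj _ (m + 2) c hc
  obtain ⟨b', hb'⟩ := H551.Rep.unique hα (hβ ▸ rep_pow hβ' p)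
  refine ⟨y, hy, b' + p • b, ?_⟩
  rw [map_add, map_nsmul, hb, ← hb', map_sub, map_nsmul, smul_sub]
  abel

/-- **Detection modulo `p`.** -/
theorem exists_of_good {f : A →+* B} {m : ℕ} {a : Fin (m + 1) → A} (h : Good f k m a)
    (D : Fin (m + 1) → Derivation ℤ A k) (hD : Matrix.det (Matrix.of fun i j => D j (a i)) ≠ 0)
    {p : ℕ} (hp : (p : k) = 0) :
    ∃ α : QK.K (m + 1) A, QK.K.map (m + 1) f α = 1 ∧ ∀ β, β ^ p ≠ α := by
  obtain ⟨z, ε, ⟨α, hα, h1⟩, hz, h3, h4⟩ := h
  refine ⟨α, h1, fun β hβ => hD ?_⟩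
  let e := Fintype.equivFin H911.I
  let D' : ℕ → Derivation ℤ A k := fun l => if h : l < m + 1 then D (Fin.rev ⟨l, h⟩) else 0
  obtain ⟨d, hd⟩ := exists_qdata (R := A) (k := k) e D'
  obtain ⟨y, hy, b, hb⟩ := exists_of_pow hα hβ
  have h5 := H924.detect (H51.tw_cocycle (qc d (m + 1)) (qc_cocycle d (m + 1)))
    (x := spush (gMap A e) _ z - p • y) (by
      change sbd _ (m + 1) (spush (gMap A e) (m + 2) z - p • y) = 0
      rw [map_sub, map_nsmul, ← H924.spush_sbd, hz, map_zero, hy, smul_zero, sub_zero]) hb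
  rw [map_sub, map_nsmul, nsmul_eq_mul, hp, zero_mul, sub_zero] at h5
  have h6 : sev (qc d (m + 1)) (spush (nerveMap (gFun A e)) _ z) = 0 :=
    (H51.sev_tw (qc d (m + 1)) (gFun A e) z).symm.trans h5
  have h7 : sev (qc d (m + 1)) (spush (nerveMap (gFun A e)) _ z) =
      eps (m + 1) * OmC (fun j : Fin (m + 1) => dli (D' j.rev)) z := by
    refine Submodule.span_induction (p := fun z _ => sev (qc d (m + 1))
      (spush (nerveMap (gFun A e)) _ z) = eps (m + 1) *
      OmC (fun j : Fin (m + 1) => dli (D' j.rev)) z) ?_ ?_ ?_ ?_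
      ((Finsupp.supported_eq_span_single ℤ _).le h3)
    · rintro _ ⟨F, hF, rfl⟩
      rw [H924.spush_single, H924.sev_single, OmC_single, one_smul, one_smul]
      exact cub_DgS e hd F hF
    · simp
    · intro x y _ _ hx hy
      rw [map_add, map_add, hx, hy, map_add, mul_add]
    · intro a x _ hx
      rw [map_smul, map_smul, hx, map_smul, mul_smul_comm]
  have h8 : (fun j : Fin (m + 1) => dli (D' j.rev)) = fun j => dli (D j) := funext fun j => by
    simp only [D']
    rw [dif_pos j.rev.2, Fin.eta, Fin.rev_rev]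
  have h9 := congrArg (Int.cast : ℤ → k) (eps_sq (m + 1))
  rw [Int.cast_mul, Int.cast_one] at h9
  rw [h6, h8, h4] at h7
  have h10 := unit_mul_inv k ε
  linear_combination (-(eps (m + 1) : k) * algebraMap A k ((ε⁻¹ : Aˣ) : A)) * h7 -
    Matrix.det (Matrix.of fun i j => D j (a i)) * (h10 + algebraMap A k ((ε⁻¹ : Aˣ) : A) *
      algebraMap A k ε * h9)

end Mat

end Vale.Agent.N178B
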